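import Vale.Agent.P235.H56.Defs2
import Vale.Agent.P235.H134.Grid.MinorRow

/-!
# Graphs without `K_{3,3} ⊔ P`, `P` planar: statements (helper141)

`K33 ⊕g grid r` is the disjoint union of `K_{3,3}` and the `r × r` grid.  Everything is a typed
interface: each block proves `theorem … : XStmt`.
-/

namespace Vale.Agent.P235.H141

open SimpleGraph Vale.Agent.P235.H134 Vale.Agent.P235.H56
open Vale.Agent.P235.H341W (capG)

/-- the boundary of the `r × r` grid -/
def bd (r : ℕ) : Set (Fin r × Fin r) :=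
  {x | x.1.val = 0 ∨ x.2.val = 0 ∨ x.1.val + 1 = r ∨ x.2.val + 1 = r}

/-- `n` disjoint `r × r` grids and one vertex `none` joined to all their boundary vertices -/
def hub (n r : ℕ) : SimpleGraph (Option (Fin n × (Fin r × Fin r))) :=
  capG ((⊥ : SimpleGraph (Fin n)) □ grid r) {x | x.2 ∈ bd r}

/-- (Hub) large grids contain `hub n r`. Streets `x = 0`, `m < x`, `y % (m + 1) = 0` (`m = r`) form
the branch set of `none`, the other cells are single. -/
def HubStmt : Prop := ∀ n r : ℕ, 1 ≤ r → ∃ R : ℕ, 1 ≤ R ∧ IsMinor (hub n r) (grid R)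

/-- (NC) the grid with a vertex joined to its boundary is 3-connected. -/
def NCStmt : Prop := ∀ r : ℕ, 2 ≤ r → Conn3 (capG (grid r) (bd r))

/-- (TL) thinning: a connected graph with a minor `hub 4 r` contains a connected set through any
three given vertices which misses a minor `grid r`. -/
def ThinStmt : Prop :=
  ∀ (V : Type) [Finite V] (G : SimpleGraph V) (r : ℕ) (w : Fin 3 → V), 1 ≤ r → G.Connected →
    IsMinor (hub 4 r) G →
    ∃ D : Set V, (G.induce D).Connected ∧ (∀ i, w i ∈ D) ∧ IsMinor (grid r) (G.induce Dᶜ)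

/-- (MO) a model of `K_{3,3}` one branch set of which contains a minor `hub 4 r`. -/
def ModelStmt : Prop :=
  ∀ (V : Type) [Finite V] (G : SimpleGraph V) (r : ℕ) (μ : Fin 3 ⊕ Fin 3 → Set V), 1 ≤ r →
    (∀ a, (G.induce (μ a)).Connected) → (∀ a b, a ≠ b → Disjoint (μ a) (μ b)) →
    (∀ a b, K33.Adj a b → ∃ x ∈ μ a, ∃ y ∈ μ b, G.Adj x y) →
    (∃ a, IsMinor (hub 4 r) (G.induce (μ a))) → IsMinor (K33 ⊕g grid r) G

/-- (WS) a weak splitter theorem: a 3-connected quotient of a 3-connected graph with fewer vertices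
comes from a 3-connected quotient with one vertex more, by contracting one edge. -/
def RefineStmt : Prop :=
  ∀ (V W : Type) [Finite V] [Finite W] (G : SimpleGraph V) (f : V → W), Conn3 G →
    (∀ w, (G.induce {v | f v = w}).Connected) → Conn3 (quot G f) → 4 ≤ Nat.card W →
    Nat.card W < Nat.card V →
    ∃ (g : V → Option W) (w : W), (∀ x, (G.induce {v | g v = x}).Connected) ∧
      Conn3 (quot G g) ∧ (quot G g).Adj none (some w) ∧
      quot (quot G g) (fun x => x.getD w) = quot G f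

/-- (CG) in graphs without a `K_{3,3}` minor, deleting the neighbours of a vertex leaves a large
grid. -/
def CapGridStmt : Prop :=
  ∀ (V : Type) [Finite V] (G : SimpleGraph V) (T : Set V) (r : ℕ), 1 ≤ r →
    ¬ IsMinor K33 (capG G T) → IsMinor (grid (3 * r)) G → IsMinor (grid r) (G.induce Tᶜ)

/-- (PK) plane graphs have no minor `K_{3,3}`. -/
def PKStmt : Prop :=
  ∀ (V : Type) [Finite V] (G : SimpleGraph V), G.Connected →
    (∃ σ : Equiv.Perm G.Dart, PlaneMap G σ) → ¬ IsMinor K33 G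

/-- (N3') `a`, `b` adjacent, both with the neighbours `c₁, c₂, c₃` and no others. -/
def N3GridStmt : Prop :=
  ∀ (V : Type) [Finite V] (G : SimpleGraph V) (a b c₁ c₂ c₃ : V) (r : ℕ), 1 ≤ r → Conn3 G →
    a ≠ b → (∀ x, G.Adj a x ↔ x = b ∨ x = c₁ ∨ x = c₂ ∨ x = c₃) →
    (∀ x, G.Adj b x ↔ x = a ∨ x = c₁ ∨ x = c₂ ∨ x = c₃) → c₁ ≠ c₂ → c₁ ≠ c₃ → c₂ ≠ c₃ →
    IsMinor (hub 4 r) (G.induce {x | x ≠ a ∧ x ≠ b ∧ x ≠ c₁ ∧ x ≠ c₂ ∧ x ≠ c₃}) →
    IsMinor (K33 ⊕g grid r) G

/-- (Core') crossing neighbours on a face which is a cycle. -/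
def CrossGridStmt : Prop :=
  ∀ (V : Type) [Finite V] (G : SimpleGraph V) (A B : Set V) (r : ℕ), 1 ≤ r → Conn2 G →
    3 ≤ Nat.card V → (∃ τ : Equiv.Perm (capG G (A ∪ B)).Dart, PlaneMap (capG G (A ∪ B)) τ) →
    2 ≤ A.ncard → 2 ≤ B.ncard → IsMinor (grid (3 * r)) G →
    IsMinor (K33 ⊕g grid r) (capG (capG G A) (insert none (some '' B))) ∨
    (∃ σ : Equiv.Perm (capG (capG G A) (insert none (some '' B))).Dart,
      PlaneMap (capG (capG G A) (insert none (some '' B))) σ) ∨ (A = B ∧ A.ncard = 3)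

/-- (S) 3-connected graphs which are not plane and contain a large grid contain `K_{3,3}` and a grid,
disjoint. -/
def StructStmt : Prop :=
  ∀ r : ℕ, 1 ≤ r → ∃ R : ℕ, ∀ (V : Type) [Finite V] (G : SimpleGraph V), Conn3 G →
    4 ≤ Nat.card V → G.Connected → IsMinor (grid R) G →
    (∃ σ : Equiv.Perm G.Dart, PlaneMap G σ) ∨ IsMinor (K33 ⊕g grid r) G

end Vale.Agent.P235.H141
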