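import Vale.Agent.P235.H141.JDefs
import Vale.Agent.P235.H134.Grid.Planar

/-! More statements for `K33 ⊔ P` (helper141). -/

namespace Vale.Agent.P235.H141

open SimpleGraph Vale.Agent.P235 Vale.Agent.P235.H134 Vale.Agent.P235.H56
open Vale.Agent.P235.H341W (capG)

/-- `K_{3,3}` and the `r × r` grid, a vertex of `K_{3,3}` joined to the corner of the grid -/
def jnd (r : ℕ) : SimpleGraph ((Fin 3 ⊕ Fin 3) ⊕ (Fin r × Fin r)) :=
  (K33 ⊕g grid r) ⊔ fromRel fun a b =>
    a = Sum.inl (Sum.inl 0) ∧ ∃ x : Fin r × Fin r, b = Sum.inr x ∧ x.1.val = 0 ∧ x.2.val = 0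

/-- (LK) linking in a connected graph. -/
def LinkStmt : Prop :=
  ∀ (V : Type) [Finite V] (G : SimpleGraph V) (r : ℕ), 1 ≤ r → G.Connected →
    IsMinor (K33 ⊕g hub 2 r) G → IsMinor (jnd r) G

/-- (SM) disjoint unions are monotone. -/
def SumMonoStmt : Prop :=
  ∀ (A B C : Type) (K : SimpleGraph A) (H : SimpleGraph B) (H' : SimpleGraph C),
    IsMinor H H' → IsMinor (K ⊕g H) (K ⊕g H')

/-- (RQ) removing few vertices: a grid of size `3 s` survives the deletion of at most 8 vertices as a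
grid of size `s`. -/
def DelStmt : Prop :=
  ∀ (V : Type) [Finite V] (G : SimpleGraph V) (T : Set V) (s : ℕ), 1 ≤ s → T.ncard ≤ 8 →
    IsMinor (grid (3 * s)) G → IsMinor (grid s) (G.induce Tᶜ)

/-- (GM) smaller grids. -/
def GridMonoStmt : Prop := ∀ r s : ℕ, r ≤ s → IsMinor (grid r) (grid s)

/-- (PC) the bound for `c₁`. -/
def FinStmt : Prop :=
  StructStmt → ∀ (P : Type) [Finite P] (H : SimpleGraph P), Planar H →
    ∃ C : ℝ, ∀ (V : Type) [Finite V] (G : SimpleGraph V), G.Connected →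
      ¬ IsMinor (K33 ⊕g H) G → DistortionLE G C

end Vale.Agent.P235.H141
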