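import Vale.Agent.P235.H141.Struct
import Vale.Agent.P235.H56.CoreGrid
import Vale.Agent.P235.H786.Del

/-! **(S)** (helper141, from all rows). -/

namespace Vale.Agent.P235.H141

open SimpleGraph Vale.Agent.P235 Vale.Agent.P235.H134 Vale.Agent.P235.H56

/-- **For every `r` there is `R` such that a 3-connected graph which is not plane and has the
`R × R` grid as a minor has the disjoint union of `K_{3,3}` and the `r × r` grid as a minor.** -/
theorem structStmt : StructStmt :=
  struct_of crossGridStmt H786.delStmt H786.gridMonoStmt

end Vale.Agent.P235.H141
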