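import Vale.Agent.P235.H56.Defs2
import Vale.Agent.P235.H536.MergeStmt
import Vale.Agent.P235.R2.H418.Ind

/-! [DECAP] (helper141): removing the vertex `none` puts its neighbours on one face. -/

set_option linter.all false

namespace Vale.Agent.P235.H141

open SimpleGraph Vale.Agent.P235 Vale.Agent.P235.H56
open Vale.Agent.P235.H341W (capG indRot_plane)

attribute [local instance] finite_dart

/-- plane maps are transported by isomorphisms, with the vertices of any face -/
theorem planeMap_iso_face {V W : Type} {G : SimpleGraph V} {G' : SimpleGraph W} (φ : G ≃g G')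
    (σ : Equiv.Perm G.Dart) (hσ : PlaneMap G σ) (f : G.Dart) :
    ∃ (σ' : Equiv.Perm G'.Dart) (f' : G'.Dart), PlaneMap G' σ' ∧
      ∀ v ∈ onFace σ f, φ v ∈ onFace σ' f' := by
  let e : G.Dart ≃ G'.Dart :=
    { toFun := fun d => ⟨(φ d.fst, φ d.snd), φ.map_adj_iff.2 d.adj⟩
      invFun := fun d => ⟨(φ.symm d.fst, φ.symm d.snd), φ.symm.map_adj_iff.2 d.adj⟩
      left_inv := fun d => by
        ext
        · exact φ.symm_apply_apply _
        · exact φ.symm_apply_apply _
      right_inv := fun d => by
        ext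
        · exact φ.apply_symm_apply _
        · exact φ.apply_symm_apply _ }
  let σ' : Equiv.Perm G'.Dart := (e.symm.trans σ).trans e
  have h1 : ∀ d, σ' (e d) = e (σ d) := fun d => by
    show e (σ (e.symm (e d))) = _
    rw [e.symm_apply_apply]
  have hp : ∀ (n : ℤ) (d : G.Dart), (σ' ^ n) (e d) = e ((σ ^ n) d) := by
    intro n
    induction n using Int.induction_on with
    | zero => intro d; rfl
    | succ n ih =>
      intro d
      rw [zpow_add_one, Equiv.Perm.mul_apply, h1, ih, zpow_add_one, Equiv.Perm.mul_apply]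
    | pred n ih =>
      intro d
      have h3 : σ'⁻¹ (e d) = e (σ⁻¹ d) := by
        rw [Equiv.Perm.inv_eq_iff_eq, h1, show σ (σ⁻¹ d) = d from Equiv.apply_symm_apply _ _]
      rw [zpow_sub_one, Equiv.Perm.mul_apply, h3, ih, zpow_sub_one, Equiv.Perm.mul_apply]
  have h2 : ∀ d, faceNext σ' (e d) = e (faceNext σ d) := fun d => h1 d.symm
  have hf : ∀ (n : ℤ) (d : G.Dart), (faceNext σ' ^ n) (e d) = e ((faceNext σ ^ n) d) := by
    intro n
    induction n using Int.induction_on with
    | zero => intro d; rfl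
    | succ n ih =>
      intro d
      rw [zpow_add_one, Equiv.Perm.mul_apply, h2, ih, zpow_add_one, Equiv.Perm.mul_apply]
    | pred n ih =>
      intro d
      have h3 : (faceNext σ')⁻¹ (e d) = e ((faceNext σ)⁻¹ d) := by
        rw [Equiv.Perm.inv_eq_iff_eq, h2,
          show faceNext σ ((faceNext σ)⁻¹ d) = d from Equiv.apply_symm_apply _ _]
      rw [zpow_sub_one, Equiv.Perm.mul_apply, h3, ih, zpow_sub_one, Equiv.Perm.mul_apply]
  refine ⟨σ', e f, ⟨?_, ?_, ?_⟩, ?_⟩
  · intro d
    obtain ⟨d, rfl⟩ := e.surjective d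
    rw [h1]
    exact congrArg φ (hσ.fst d)
  · intro d d' hd
    obtain ⟨d, rfl⟩ := e.surjective d
    obtain ⟨d', rfl⟩ := e.surjective d'
    obtain ⟨n, hn⟩ := hσ.cyc d d' (φ.injective hd)
    exact ⟨n, by rw [hp, hn]⟩
  · have e1 : Nat.card V = Nat.card W := Nat.card_congr φ.toEquiv
    have e2 : Nat.card G.edgeSet = Nat.card G'.edgeSet := Nat.card_congr φ.mapEdgeSet
    have e3 : Nat.card (Quotient (Equiv.Perm.SameCycle.setoid (faceNext σ))) =
        Nat.card (Quotient (Equiv.Perm.SameCycle.setoid (faceNext σ'))) := by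
      refine Nat.card_congr (Quotient.congr e fun a b => ?_)
      constructor
      · rintro ⟨n, hn⟩
        exact ⟨n, by rw [hf, hn]⟩
      · rintro ⟨n, hn⟩
        rw [hf] at hn
        exact ⟨n, e.injective hn⟩
    rw [← e1, ← e2, ← e3]
    exact hσ.euler
  · rintro v ⟨d, ⟨n, hn⟩, rfl⟩
    exact ⟨e d, ⟨n, by rw [hf, hn]⟩, rfl⟩

/-- `capG G T` without the new vertex is `G` -/
noncomputable def uncap {V : Type} (G : SimpleGraph V) (T : Set V) :
    (capG G T).induce {x : Option V | x ≠ none} ≃g G where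
  toFun x := x.1.get (Option.ne_none_iff_isSome.1 x.2)
  invFun v := ⟨some v, Option.some_ne_none v⟩
  left_inv := by
    rintro ⟨_ | v, hv⟩
    · exact absurd rfl hv
    · rfl
  right_inv _ := rfl
  map_rel_iff' := by
    rintro ⟨_ | v, hv⟩ ⟨_ | w, hw⟩
    · exact absurd rfl hv
    · exact absurd rfl hv
    · exact absurd rfl hw
    · exact Iff.rfl

theorem capG_conn {V : Type} {G : SimpleGraph V} {T : Set V} (hc : G.Connected)
    (hT : T.Nonempty) : (capG G T).Connected := by
  have hs : ∀ u v : V, G.Walk u v → (capG G T).Reachable (some u) (some v) := by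
    intro u v w
    induction w with
    | nil => exact SimpleGraph.Reachable.refl _
    | @cons a b c hab _ ih =>
      have h1 : (capG G T).Adj (some a) (some b) := hab
      exact h1.reachable.trans ih
  obtain ⟨x, hx⟩ := hT
  have hn : ∀ v : V, (capG G T).Reachable none (some v) := by
    intro v
    obtain ⟨w⟩ := hc x v
    have h1 : (capG G T).Adj none (some x) := hx
    exact h1.reachable.trans (hs x v w)
  refine ⟨?_⟩
  rintro (_ | u) (_ | v)
  · exact SimpleGraph.Reachable.refl _
  · exact hn v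
  · exact (hn u).symm
  · obtain ⟨w⟩ := hc u v
    exact hs u v w

/-- (Decap) removing the vertex `none` puts its neighbours on one face. -/
theorem decapStmt : DecapStmt := by
  intro V _ G T hG hT hne ⟨τ, hτ⟩
  have hK : (capG G T).Connected := capG_conn hG hT
  have hS : ((capG G T).induce {x : Option V | x ≠ none}).Connected :=
    (uncap G T).connected_iff.2 hG
  have hne' : Nonempty ((capG G T).induce {x : Option V | x ≠ none}).Dart := by
    obtain ⟨d⟩ := hne
    exact ⟨⟨((uncap G T).symm d.fst, (uncap G T).symm d.snd),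
      (uncap G T).symm.map_adj_iff.2 d.adj⟩⟩
  have hpl := indRot_plane hK hτ hS hne'
  obtain ⟨f, hf⟩ := H536.merge_face (S := {x : Option V | x ≠ none}) (X := {none}) hτ.fst hτ.cyc
    hS (fun i1 i2 z h1 _ h2 => cycStmt _ _ τ hK hτ i1 i2 z h1 h2)
    (by
      refine ⟨?_⟩
      rintro ⟨a, rfl⟩ ⟨b, rfl⟩
      exact Reachable.refl _)
    (Set.disjoint_left.2 fun x hx hx' => hx hx')
    (fun s _ x hx _ => not_not.1 hx) hne'
  obtain ⟨σ, d, hσ, hd⟩ := planeMap_iso_face (uncap G T) _ hpl f
  refine ⟨σ, d, hσ, fun t ht => ?_⟩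
  let e : (capG G T).Dart := ⟨(some t, none), ht⟩
  have h1 := hf e (Option.some_ne_none t) ⟨faceNext τ e,
    Equiv.Perm.sameCycle_apply_right.2 (Equiv.Perm.SameCycle.refl _ _), by
      rw [H536.faceNext_fst hτ]
      exact fun h => h rfl⟩
  exact hd _ h1

end Vale.Agent.P235.H141
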