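import Vale.Agent.P235.H141.Mk

/-! (K5): six vertices, an edge `a b` whose contraction gives `K_5` (helper141). -/

namespace Vale.Agent.P235.H141

open SimpleGraph Vale.Agent.P235.H134 Vale.Agent.P235.H56

theorem k5Stmt : K5Stmt := by
  classical
  intro V _ G a b hab h3 hV hK
  have := Fintype.ofFinite V
  rw [Nat.card_eq_fintype_card] at hV
  -- the other four vertices form a `K_4`, each sees `a` or `b`
  have hcc : ∀ x y : V, x ≠ a → x ≠ b → y ≠ a → y ≠ b → x ≠ y → G.Adj x y := by
    intro x y hxa hxb hya hyb hxy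
    have h := (hK ⟨x, hxb⟩ ⟨y, hyb⟩ fun h => hxy (congrArg Subtype.val h)).2
    rcases h with h | ⟨h, _⟩ | ⟨h, _⟩
    · exact h
    · exact (hxa h).elim
    · exact (hya h).elim
  have hor : ∀ x : V, x ≠ a → x ≠ b → G.Adj a x ∨ G.Adj b x := by
    intro x hxa hxb
    have h := (hK ⟨a, hab.ne⟩ ⟨x, hxb⟩ fun h => hxa (congrArg Subtype.val h).symm).2
    rcases h with h | ⟨_, h⟩ | ⟨h, _⟩
    · exact Or.inl h
    · exact Or.inr h
    · exact (hxa h).elim
  set C : Finset V := Finset.univ.filter fun x => x ≠ a ∧ x ≠ b with hC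
  have hmC : ∀ x, x ∈ C ↔ x ≠ a ∧ x ≠ b := fun x => by simp [hC]
  have hCc : C.card = 4 := by
    have h1 : C = (Finset.univ.erase a).erase b := by
      ext x
      simp only [hmC, Finset.mem_erase, Finset.mem_univ, and_true]
      tauto
    rw [h1, Finset.card_erase_of_mem (by simp [hab.ne.symm]), Finset.card_erase_of_mem (by simp),
      Finset.card_univ, hV]
  -- `p` adjacent to `q`: `p` has two neighbours in `C`
  have two : ∀ p q : V, p ≠ q → (∀ x, x ∈ C ↔ x ≠ p ∧ x ≠ q) →
      2 ≤ (C.filter fun x => G.Adj p x).card := by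
    intro p q hpq hCpq
    by_contra hlt
    have hle : (C.filter fun x => G.Adj p x).card ≤ 1 := by omega
    -- a vertex `c` such that the neighbours of `p` are among `q`, `c`
    obtain ⟨c, hc⟩ : ∃ c, c ≠ p ∧ ∀ x, G.Adj p x → x = q ∨ x = c := by
      rcases (C.filter fun x => G.Adj p x).eq_empty_or_nonempty with he | ⟨c, hc⟩
      · refine ⟨q, hpq.symm, fun x hx => ?_⟩
        by_contra hno
        push Not at hno
        have : x ∈ C.filter fun x => G.Adj p x :=
          Finset.mem_filter.2 ⟨(hCpq x).2 ⟨hx.ne', hno.1⟩, hx⟩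
        rw [he] at this
        exact absurd this (Finset.notMem_empty x)
      · refine ⟨c, ((hCpq c).1 (Finset.mem_filter.1 hc).1).1, fun x hx => ?_⟩
        by_cases hxq : x = q
        · exact Or.inl hxq
        · exact Or.inr (Finset.card_le_one.1 hle x
            (Finset.mem_filter.2 ⟨(hCpq x).2 ⟨hx.ne', hxq⟩, hx⟩) c hc)
    have h := h3 q c {p} ⟨p, rfl⟩ (fun h => hpq h.symm) (fun h => hc.1 h) (fun u hu v huv => by
      rw [Set.mem_singleton_iff] at hu
      subst hu
      exact Or.inr (hc.2 v huv))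
    have h1 : (Finset.univ : Finset V) ⊆ {p, q, c} := by
      intro y _
      rcases h y with h | h | h
      · rw [Set.mem_singleton_iff] at h
        simp [h]
      · simp [h]
      · simp [h]
    have h2 := Finset.card_le_card h1
    rw [Finset.card_univ, hV] at h2
    have h4 : ({p, q, c} : Finset V).card ≤ 3 := Finset.card_le_three
    omega
  have hA := two a b hab.ne hmC
  have hB := two b a hab.ne.symm fun x => (hmC x).trans and_comm
  -- split `C`
  have hsub : C.filter (fun x => ¬ G.Adj b x) ⊆ C.filter fun x => G.Adj a x := by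
    intro x hx
    rw [Finset.mem_filter] at hx ⊢
    have h := (hmC x).1 hx.1
    exact ⟨hx.1, (hor x h.1 h.2).resolve_right hx.2⟩
  have hsum := Finset.card_filter_add_card_filter_not (s := C) (fun x => G.Adj b x)
  obtain ⟨Z, hZ1, hZ2, hZc⟩ := Finset.exists_subsuperset_card_eq hsub (n := 2) (by omega) hA
  have hZC : Z ⊆ C := fun x hx => (Finset.mem_filter.1 (hZ2 hx)).1
  have hYc : (C \ Z).card = 2 := by
    rw [Finset.card_sdiff_of_subset hZC]
    omega
  obtain ⟨z, w, hzw, rfl⟩ := Finset.card_eq_two.1 hZc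
  obtain ⟨x, y, hxy, hY⟩ := Finset.card_eq_two.1 hYc
  have hx : x ∈ C \ {z, w} := by rw [hY]; simp
  have hy : y ∈ C \ {z, w} := by rw [hY]; simp
  have hb : ∀ u ∈ C \ {z, w}, G.Adj b u := by
    intro u hu
    rw [Finset.mem_sdiff] at hu
    by_contra hno
    exact hu.2 (hZ1 (Finset.mem_filter.2 ⟨hu.1, hno⟩))
  have hz := Finset.mem_filter.1 (hZ2 (by simp : z ∈ ({z, w} : Finset V)))
  have hw := Finset.mem_filter.1 (hZ2 (by simp : w ∈ ({z, w} : Finset V)))
  have hcr : ∀ u ∈ C \ {z, w}, G.Adj u z ∧ G.Adj u w := by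
    intro u hu
    rw [Finset.mem_sdiff] at hu
    have h1 := (hmC u).1 hu.1
    have h2 := (hmC z).1 hz.1
    have h4 := (hmC w).1 hw.1
    have h5 : u ≠ z := fun h => hu.2 (by simp [h])
    have h6 : u ≠ w := fun h => hu.2 (by simp [h])
    exact ⟨hcc u z h1.1 h1.2 h2.1 h2.2 h5, hcc u w h1.1 h1.2 h4.1 h4.2 h6⟩
  have hxC := (hmC x).1 (Finset.mem_sdiff.1 hx).1
  have hyC := (hmC y).1 (Finset.mem_sdiff.1 hy).1
  have hzC := (hmC z).1 hz.1
  have hwC := (hmC w).1 hw.1
  refine k33_pts ![a, x, y] ![b, z, w] ?_ ?_ ?_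
  · intro i j hij
    fin_cases i <;> fin_cases j <;> first | rfl | (exfalso; revert hij)
    exacts [fun h => hxC.1 h.symm, fun h => hyC.1 h.symm, fun h => hxC.1 h, fun h => hxy h,
      fun h => hyC.1 h, fun h => hxy h.symm]
  · intro i j hij
    fin_cases i <;> fin_cases j <;> first | rfl | (exfalso; revert hij)
    exacts [fun h => hzC.2 h.symm, fun h => hwC.2 h.symm, fun h => hzC.2 h, fun h => hzw h,
      fun h => hwC.2 h, fun h => hzw h.symm]
  · intro i j
    fin_cases i <;> fin_cases j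
    exacts [hab, hz.2, hw.2, (hb x hx).symm, (hcr x hx).1, (hcr x hx).2, (hb y hy).symm,
      (hcr y hy).1, (hcr y hy).2]

end Vale.Agent.P235.H141
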