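import Vale.Agent.P235.H56.Defs

/-! `K_{3,3}` minors from six sets; the component of a vertex off a set (helper141). -/

namespace Vale.Agent.P235.H141

open SimpleGraph Vale.Agent.P235.H134 Vale.Agent.P235.H56

variable {V : Type} {G : SimpleGraph V}

/-- a `K_{3,3}` minor from two triples of connected sets -/
theorem k33_mk (L R : Fin 3 → Set V) (hL : ∀ i, (G.induce (L i)).Connected)
    (hR : ∀ i, (G.induce (R i)).Connected) (hLL : ∀ i j, i ≠ j → Disjoint (L i) (L j))
    (hRR : ∀ i j, i ≠ j → Disjoint (R i) (R j)) (hLR : ∀ i j, Disjoint (L i) (R j))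
    (hadj : ∀ i j, ∃ x ∈ L i, ∃ y ∈ R j, G.Adj x y) : IsMinor K33 G := by
  refine ⟨Sum.elim L R, ?_, ?_, ?_⟩
  · rintro (i | i)
    · exact hL i
    · exact hR i
  · rintro (i | i) (j | j) hij
    · exact hLL i j fun h => hij (by rw [h])
    · exact hLR i j
    · exact (hLR j i).symm
    · exact hRR i j fun h => hij (by rw [h])
  · rintro (i | i) (j | j) hij
    · simp [completeBipartiteGraph] at hij
    · exact hadj i j
    · obtain ⟨x, hx, y, hy, h⟩ := hadj j i
      exact ⟨y, hy, x, hx, h.symm⟩
    · simp [completeBipartiteGraph] at hij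

theorem single_conn (v : V) : (G.induce ({v} : Set V)).Connected := by
  have : Subsingleton ({v} : Set V) := ⟨fun x y => Subtype.ext (x.2.trans y.2.symm)⟩
  have : Nonempty ({v} : Set V) := ⟨⟨v, rfl⟩⟩
  exact ⟨fun x y => by rw [Subsingleton.elim x y]⟩

/-- `K_{3,3}` as a subgraph -/
theorem k33_pts (l r : Fin 3 → V) (hl : Function.Injective l) (hr : Function.Injective r)
    (hlr : ∀ i j, G.Adj (l i) (r j)) : IsMinor K33 G := by
  refine k33_mk (fun i => {l i}) (fun i => {r i}) (fun i => single_conn _) (fun i => single_conn _)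
    (fun i j hij => ?_) (fun i j hij => ?_) (fun i j => ?_)
    (fun i j => ⟨l i, rfl, r j, rfl, hlr i j⟩)
  · exact Set.disjoint_singleton.2 fun h => hij (hl h)
  · exact Set.disjoint_singleton.2 fun h => hij (hr h)
  · exact Set.disjoint_singleton.2 (hlr i j).ne

/-- the vertices which `w` reaches off `X` -/
def off (G : SimpleGraph V) (X : Set V) (w : V) : Set V :=
  {v | ∃ p : G.Walk w v, ∀ x ∈ p.support, x ∉ X}

theorem off_self {X : Set V} {w : V} (hw : w ∉ X) : w ∈ off G X w :=
  ⟨Walk.nil, fun x hx => by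
    rw [Walk.support_nil, List.mem_singleton] at hx
    rw [hx]
    exact hw⟩

theorem off_not {X : Set V} {w v : V} (hv : v ∈ off G X w) : v ∉ X := by
  obtain ⟨p, hp⟩ := hv
  exact hp v p.end_mem_support

theorem off_cl {X : Set V} {w u v : V} (hu : u ∈ off G X w) (h : G.Adj u v) :
    v ∈ off G X w ∨ v ∈ X := by
  by_cases hv : v ∈ X
  · exact Or.inr hv
  obtain ⟨p, hp⟩ := hu
  refine Or.inl ⟨p.concat h, fun x hx => ?_⟩
  rw [Walk.support_concat, List.mem_append, List.mem_singleton] at hx
  rcases hx with hx | rfl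
  · exact hp x hx
  · exact hv

theorem off_conn {X : Set V} {w : V} (hw : w ∉ X) : (G.induce (off G X w)).Connected := by
  classical
  refine induce_connected_of_patches w (off_self hw) fun {v} hv => ?_
  obtain ⟨p, hp⟩ := hv
  refine ⟨{x | x ∈ p.support}, fun x hx => ⟨p.takeUntil x hx, fun y hy =>
    hp y (p.support_takeUntil_subset_support hx hy)⟩, p.start_mem_support, p.end_mem_support, ?_⟩
  exact p.connected_induce_support ⟨w, p.start_mem_support⟩ ⟨v, p.end_mem_support⟩

end Vale.Agent.P235.H141
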