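import Vale.Agent.P235.H141.Mk

/-! (N3): two adjacent vertices with the same three other neighbours (helper141). -/

namespace Vale.Agent.P235.H141

open SimpleGraph Vale.Agent.P235.H134 Vale.Agent.P235.H56

theorem n3Stmt : N3Stmt := by
  intro V _ G a b c₁ c₂ c₃ h3 hV hab ha hb h12 h13 h23
  have hac : G.Adj a c₁ ∧ G.Adj a c₂ ∧ G.Adj a c₃ :=
    ⟨(ha _).2 (by tauto), (ha _).2 (by tauto), (ha _).2 (by tauto)⟩
  have hbc : G.Adj b c₁ ∧ G.Adj b c₂ ∧ G.Adj b c₃ :=
    ⟨(hb _).2 (by tauto), (hb _).2 (by tauto), (hb _).2 (by tauto)⟩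
  -- a sixth vertex
  obtain ⟨w, hw⟩ : ∃ w, w ∉ ({a, b, c₁, c₂, c₃} : Set V) := by
    by_contra hno
    push Not at hno
    have h1 := Set.ncard_le_ncard (fun y _ => hno y : (Set.univ : Set V) ⊆ _) (Set.toFinite _)
    rw [Set.ncard_univ] at h1
    have h2 : ({a, b, c₁, c₂, c₃} : Set V).ncard ≤ 5 := by
      refine (Set.ncard_insert_le _ _).trans (Nat.succ_le_succ ?_)
      refine (Set.ncard_insert_le _ _).trans (Nat.succ_le_succ ?_)
      refine (Set.ncard_insert_le _ _).trans (Nat.succ_le_succ ?_)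
      refine (Set.ncard_insert_le _ _).trans (Nat.succ_le_succ ?_)
      simp
    omega
  set X : Set V := {a, b, c₁, c₂, c₃} with hX
  set D := off G X w with hD
  have hwD : w ∈ D := off_self hw
  have haX : a ∈ X := by simp [hX]
  have hbX : b ∈ X := by simp [hX]
  have hcX : c₁ ∈ X ∧ c₂ ∈ X ∧ c₃ ∈ X := by simp [hX]
  have hDX : ∀ v ∈ D, v ∉ X := fun v hv => off_not hv
  -- the neighbours of `D`
  have hN : ∀ u ∈ D, ∀ v, G.Adj u v → v ∈ D ∨ v = c₁ ∨ v = c₂ ∨ v = c₃ := by
    intro u hu v huv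
    rcases off_cl hu huv with h | h
    · exact Or.inl h
    right
    rcases h with h | h | h | h | h
    · exfalso
      subst h
      refine hDX u hu ?_
      rcases (ha u).1 huv.symm with h | h | h | h <;> rw [h]
      exacts [hbX, hcX.1, hcX.2.1, hcX.2.2]
    · exfalso
      subst h
      refine hDX u hu ?_
      rcases (hb u).1 huv.symm with h | h | h | h <;> rw [h]
      exacts [haX, hcX.1, hcX.2.1, hcX.2.2]
    · exact Or.inl h
    · exact Or.inr (Or.inl h)
    · exact Or.inr (Or.inr h)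
  have haD : a ∉ D := fun h => hDX a h haX
  -- all three vertices `c` are neighbours of `D`
  have key : ∀ c p q : V, p ∈ X → q ∈ X → a ≠ p → a ≠ q →
      (∀ u ∈ D, ∀ v, G.Adj u v → v ∈ D ∨ v = c ∨ v = p ∨ v = q) → ∃ u ∈ D, G.Adj u c := by
    intro c p q hp hq hap haq hN'
    by_contra hno
    push Not at hno
    rcases h3 p q D ⟨w, hwD⟩ (fun h => hDX p h hp) (fun h => hDX q h hq) (fun u hu v huv => by
      rcases hN' u hu v huv with h | h | h
      · exact Or.inl h
      · rw [h] at huv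
        exact (hno u hu huv).elim
      · exact Or.inr h) a with h | h | h
    · exact haD h
    · exact hap h
    · exact haq h
  have k1 := key c₁ c₂ c₃ hcX.2.1 hcX.2.2 hac.2.1.ne hac.2.2.ne hN
  have k2 := key c₂ c₁ c₃ hcX.1 hcX.2.2 hac.1.ne hac.2.2.ne
    fun u hu v huv => by have := hN u hu v huv; tauto
  have k3 := key c₃ c₁ c₂ hcX.1 hcX.2.1 hac.1.ne hac.2.1.ne
    fun u hu v huv => by have := hN u hu v huv; tauto
  have hDc : (G.induce D).Connected := off_conn hw
  have dj : ∀ v ∈ X, Disjoint ({v} : Set V) D := fun v hv =>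
    Set.disjoint_singleton_left.2 fun h => hDX v h hv
  refine k33_mk ![{a}, {b}, D] ![{c₁}, {c₂}, {c₃}] ?_ ?_ ?_ ?_ ?_ ?_
  · intro i
    fin_cases i
    exacts [single_conn a, single_conn b, hDc]
  · intro i
    fin_cases i
    exacts [single_conn _, single_conn _, single_conn _]
  · intro i j hij
    fin_cases i <;> fin_cases j <;> first | exact (hij rfl).elim | skip
    exacts [Set.disjoint_singleton.2 hab, dj a haX, Set.disjoint_singleton.2 hab.symm, dj b hbX,
      (dj a haX).symm, (dj b hbX).symm]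
  · intro i j hij
    fin_cases i <;> fin_cases j <;> first | exact (hij rfl).elim | skip
    exacts [Set.disjoint_singleton.2 h12, Set.disjoint_singleton.2 h13,
      Set.disjoint_singleton.2 h12.symm, Set.disjoint_singleton.2 h23,
      Set.disjoint_singleton.2 h13.symm, Set.disjoint_singleton.2 h23.symm]
  · intro i j
    fin_cases i <;> fin_cases j
    exacts [Set.disjoint_singleton.2 hac.1.ne, Set.disjoint_singleton.2 hac.2.1.ne,
      Set.disjoint_singleton.2 hac.2.2.ne, Set.disjoint_singleton.2 hbc.1.ne,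
      Set.disjoint_singleton.2 hbc.2.1.ne, Set.disjoint_singleton.2 hbc.2.2.ne,
      (dj _ hcX.1).symm, (dj _ hcX.2.1).symm, (dj _ hcX.2.2).symm]
  · intro i j
    have kk : ∀ c, (∃ u ∈ D, G.Adj u c) → ∃ x ∈ D, ∃ y ∈ ({c} : Set V), G.Adj x y :=
      fun c ⟨u, hu, h⟩ => ⟨u, hu, c, rfl, h⟩
    fin_cases i <;> fin_cases j
    exacts [⟨a, rfl, c₁, rfl, hac.1⟩, ⟨a, rfl, c₂, rfl, hac.2.1⟩, ⟨a, rfl, c₃, rfl, hac.2.2⟩,
      ⟨b, rfl, c₁, rfl, hbc.1⟩, ⟨b, rfl, c₂, rfl, hbc.2.1⟩, ⟨b, rfl, c₃, rfl, hbc.2.2⟩,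
      kk _ k1, kk _ k2, kk _ k3]

end Vale.Agent.P235.H141
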