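import Vale.Agent.P235.H141.WS
import Vale.Agent.P235.H373.Good

/-! (WS) the weak splitter theorem (helper141, helper373). -/

set_option linter.all false

namespace Vale.Agent.P235.H141

open SimpleGraph Vale.Agent.P235.H134 Vale.Agent.P235.H56

open Classical in
/-- `X` becomes a new fibre -/
noncomputable def cut {V W : Type} (f : V → W) (X : Set V) (v : V) : Option W :=
  if v ∈ X then none else some (f v)

theorem refineStmt : RefineStmt := by
  intro V W _ _ G f hG hf hK hc hlt
  obtain ⟨f', w, X, Y, h, hX, hY⟩ := exists_good hG hf hK hc hlt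
  have hn : ∀ v, cut f' X v = none ↔ v ∈ X := by
    intro v
    by_cases hv : v ∈ X <;> simp [cut, hv]
  have hs : ∀ v u, cut f' X v = some u ↔ v ∉ X ∧ f' v = u := by
    intro v u
    by_cases hv : v ∈ X <;> simp [cut, hv]
  have hsY : {v | cut f' X v = some w} = Y := by
    ext v
    simp only [Set.mem_setOf_eq, hs, h.mem]
    constructor
    · rintro ⟨h1, h2⟩
      exact h2.resolve_left h1
    · intro h1
      exact ⟨fun h2 => Set.disjoint_left.1 h.dis h2 h1, Or.inr h1⟩
  have hnX : {v | cut f' X v = none} = X := Set.ext hn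
  have hg : ∀ v, (cut f' X v).getD w = f' v := by
    intro v
    by_cases hv : v ∈ X
    · simp [cut, hv, (h.mem v).2 (Or.inl hv)]
    · simp [cut, hv]
  have hsmall : ∀ Z, ¬ Small G f' w Z → ∃ p q : W, p ≠ q ∧ p ≠ w ∧ q ≠ w ∧
      (∃ x ∈ Z, ∃ y, G.Adj x y ∧ f' y = p) ∧ (∃ x ∈ Z, ∃ y, G.Adj x y ∧ f' y = q) := by
    intro Z hZ
    simp only [Small, not_forall] at hZ
    obtain ⟨p, q, hp, hq, hpq⟩ := hZ
    exact ⟨p, q, hpq, hp.1, hq.1, hp.2, hq.2⟩
  have := Vale.Agent.P235.H373.refine_good (G := G) (f := f') (g := cut f' X) (w := w)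
    (by rw [h.quo]; exact hK) h.fib hg (by rw [hnX]; exact h.cx) (by rw [hsY]; exact h.cy)
    (by rw [hnX]; exact hsmall X hX) (by rw [hsY]; exact hsmall Y hY)
  refine ⟨cut f' X, w, ?_⟩
  rw [h.quo] at this
  exact this

end Vale.Agent.P235.H141
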