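import Vale.Agent.P235.H141.JDefs2
import Vale.Agent.P235.H56.Asm
import Vale.Agent.P235.H917.Start

/-! The last plane quotient (helper141). -/

set_option linter.all false

namespace Vale.Agent.P235.H141

open SimpleGraph Vale.Agent.P235 Vale.Agent.P235.H134 Vale.Agent.P235.H56
open Vale.Agent.P235.H341W (capG)

theorem minor_of_inj {V W : Type} {G : SimpleGraph V} {H : SimpleGraph W} (φ : V → W)
    (hφ : Function.Injective φ) (h : ∀ x y, G.Adj x y → H.Adj (φ x) (φ y)) : IsMinor G H := by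
  refine ⟨fun x => {φ x}, fun x => conn_single _ _, fun x y hxy => ?_, fun x y hxy =>
    ⟨_, rfl, _, rfl, h x y hxy⟩⟩
  rw [Set.disjoint_singleton]
  exact fun e => hxy (hφ e)

theorem minor_iso {V W : Type} {G : SimpleGraph V} {H : SimpleGraph W} (φ : G ≃g H) :
    IsMinor G H :=
  minor_of_inj φ φ.injective fun _ _ h => φ.map_rel_iff.2 h

theorem step (hcross : CrossGridStmt) (hn3 : N3GridStmt) (hdel : DelStmt) (hgm : GridMonoStmt)
    {X : Type} [Finite X] {K : SimpleGraph X} (h3 : Conn3 K) (h4 : 5 ≤ Nat.card X) {a b : X}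
    (hab : K.Adj a b) (hH3 : Conn3 (contractEdge K a b))
    (hpl : ∃ τ : Equiv.Perm (contractEdge K a b).Dart, PlaneMap (contractEdge K a b) τ)
    (hnp : ¬ ∃ σ : Equiv.Perm K.Dart, PlaneMap K σ) {r s : ℕ} (hr : 1 ≤ r) (hs : 3 * r ≤ s)
    (hhub : IsMinor (hub 4 r) (grid s)) (hgrid : IsMinor (grid (3 * s)) (contractEdge K a b)) :
    IsMinor (K33 ⊕g grid r) K := by
  have hne := hab.ne
  have hc1 := card_V1 (V := X) hne
  have hc2 := card_V2 (V := X) hne
  have h2 := conn2_of_contract hab hH3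
  have hA := two_le_nbr h3 (by omega) hab
  have hB' := two_le_nbr h3 (by omega) hab.symm
  have hB : 2 ≤ ({x | K.Adj b x.1} : Set (V2 a b)).ncard := by
    refine hB'.trans (le_of_eq ?_)
    refine Set.ncard_congr (fun x _ => (⟨x.1, x.2.2, x.2.1⟩ : V2 a b)) ?_ ?_ ?_
    · intro x hx; exact hx
    · intro x y _ _ h
      exact Subtype.ext (by have := congrArg Subtype.val h; exact this)
    · intro y hy
      exact ⟨⟨y.1, y.2.2, y.2.1⟩, hy, rfl⟩
  have hτ := Quo.planeMap_iso (iso1 K hab) hpl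
  have hg0 : IsMinor (grid (3 * r)) (G2 K a b) := by
    refine minor_trans (hgm _ _ hs) (minor_trans (hdel _ (contractEdge K a b) {⟨a, hne⟩} s
      (by omega) (by rw [Set.ncard_singleton]; omega) hgrid) ?_)
    refine minor_of_inj (fun x => ⟨x.1.1, fun h => x.2 (Subtype.ext h), x.1.2⟩) ?_ ?_
    · intro x y h
      apply Subtype.ext
      apply Subtype.ext
      exact congrArg (fun z : V2 a b => z.1) h
    · rintro ⟨⟨x, hxb⟩, hx⟩ ⟨⟨y, hyb⟩, hy⟩ h
      rcases h.2 with h | ⟨h, _⟩ | ⟨h, _⟩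
      · exact h
      · exact absurd (Subtype.ext h) hx
      · exact absurd (Subtype.ext h) hy
  rcases hcross (V2 a b) (G2 K a b) {x | K.Adj a x.1} {x | K.Adj b x.1} r hr h2 (by omega) hτ hA
    hB hg0 with h | h | ⟨hAB, hA3⟩
  · exact minor_trans h (minor_iso (iso2 K hab).symm)
  · exact absurd (Quo.planeMap_iso (iso2 K hab).symm h) hnp
  · obtain ⟨c₁, c₂, c₃, h12, h13, h23, hset⟩ := Set.ncard_eq_three.1 hA3
    have hadjA : ∀ x : V2 a b, K.Adj a x.1 ↔ x = c₁ ∨ x = c₂ ∨ x = c₃ := by
      intro x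
      have : x ∈ ({x | K.Adj a x.1} : Set (V2 a b)) ↔ x ∈ ({c₁, c₂, c₃} : Set (V2 a b)) := by
        rw [hset]
      exact this
    have hadjB : ∀ x : V2 a b, K.Adj b x.1 ↔ x = c₁ ∨ x = c₂ ∨ x = c₃ := by
      intro x
      have : x ∈ ({x | K.Adj b x.1} : Set (V2 a b)) ↔ x ∈ ({c₁, c₂, c₃} : Set (V2 a b)) := by
        rw [← hset, hAB]
      exact this
    refine hn3 X K a b c₁.1 c₂.1 c₃.1 r hr h3 hne ?_ ?_ (fun h => h12 (Subtype.ext h))
      (fun h => h13 (Subtype.ext h)) (fun h => h23 (Subtype.ext h)) ?_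
    · intro x
      constructor
      · intro hx
        by_cases hxb : x = b
        · exact Or.inl hxb
        · rcases (hadjA ⟨x, hx.ne', hxb⟩).1 hx with h | h | h
          · exact Or.inr (Or.inl (congrArg Subtype.val h))
          · exact Or.inr (Or.inr (Or.inl (congrArg Subtype.val h)))
          · exact Or.inr (Or.inr (Or.inr (congrArg Subtype.val h)))
      · rintro (rfl | rfl | rfl | rfl)
        · exact hab
        · exact (hadjA c₁).2 (Or.inl rfl)
        · exact (hadjA c₂).2 (Or.inr (Or.inl rfl))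
        · exact (hadjA c₃).2 (Or.inr (Or.inr rfl))
    · intro x
      constructor
      · intro hx
        by_cases hxa : x = a
        · exact Or.inl hxa
        · rcases (hadjB ⟨x, hxa, hx.ne'⟩).1 hx with h | h | h
          · exact Or.inr (Or.inl (congrArg Subtype.val h))
          · exact Or.inr (Or.inr (Or.inl (congrArg Subtype.val h)))
          · exact Or.inr (Or.inr (Or.inr (congrArg Subtype.val h)))
      · rintro (rfl | rfl | rfl | rfl)
        · exact hab.symm
        · exact (hadjB c₁).2 (Or.inl rfl)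
        · exact (hadjB c₂).2 (Or.inr (Or.inl rfl))
        · exact (hadjB c₃).2 (Or.inr (Or.inr rfl))
    · let T : Set {x : X // x ≠ b} :=
        {⟨a, hne⟩, ⟨c₁.1, c₁.2.2⟩, ⟨c₂.1, c₂.2.2⟩, ⟨c₃.1, c₃.2.2⟩}
      have hT : T.ncard ≤ 8 := by
        refine (Set.ncard_insert_le _ _).trans ?_
        have e1 := Set.ncard_insert_le (⟨c₁.1, c₁.2.2⟩ : {x : X // x ≠ b})
          {⟨c₂.1, c₂.2.2⟩, ⟨c₃.1, c₃.2.2⟩}
        have e2 := Set.ncard_insert_le (⟨c₂.1, c₂.2.2⟩ : {x : X // x ≠ b}) {⟨c₃.1, c₃.2.2⟩}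
        rw [Set.ncard_singleton] at e2
        omega
      refine minor_trans hhub (minor_trans (hdel _ (contractEdge K a b) T s (by omega) hT hgrid) ?_)
      have hmem : ∀ x : {x : X // x ≠ b}, x ∉ T → x.1 ≠ a ∧ x.1 ≠ b ∧ x.1 ≠ c₁.1 ∧ x.1 ≠ c₂.1 ∧
          x.1 ≠ c₃.1 := by
        intro x hx
        refine ⟨fun h => hx (Or.inl (Subtype.ext h)), x.2,
          fun h => hx (Or.inr (Or.inl (Subtype.ext h))),
          fun h => hx (Or.inr (Or.inr (Or.inl (Subtype.ext h)))),
          fun h => hx (Or.inr (Or.inr (Or.inr (Subtype.ext h))))⟩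
      refine minor_of_inj (fun x => ⟨x.1.1, hmem x.1 x.2⟩) ?_ ?_
      · intro x y h
        apply Subtype.ext
        apply Subtype.ext
        have h' := congrArg Subtype.val h
        exact h'
      · rintro ⟨⟨x, hxb⟩, hx⟩ ⟨⟨y, hyb⟩, hy⟩ h
        rcases h.2 with h | ⟨h, _⟩ | ⟨h, _⟩
        · exact h
        · exact absurd h (hmem _ hx).1
        · exact absurd h (hmem _ hy).1

/-- contraction of an edge as a quotient -/
noncomputable def isoQ {W : Type} (K : SimpleGraph (Option W)) (w : W)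
    (hab : K.Adj none (some w)) :
    quot K (fun x => x.getD w) ≃g contractEdge K (some w) none where
  toFun x := ⟨some x, Option.some_ne_none x⟩
  invFun x := x.1.get (Option.ne_none_iff_isSome.1 x.2)
  left_inv _ := rfl
  right_inv := by
    rintro ⟨_ | x, hx⟩
    · exact absurd rfl hx
    · rfl
  map_rel_iff' := by
    intro x y
    constructor
    · rintro ⟨hxy, h | ⟨h1, h2⟩ | ⟨h1, h2⟩⟩
      · exact ⟨fun e => hxy (by rw [e]), some x, some y, rfl, rfl, h⟩
      · have h3 : x = w := Option.some.inj h1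
        exact ⟨fun e => hxy (by rw [e]), none, some y, h3.symm, rfl, h2⟩
      · have h3 : y = w := Option.some.inj h1
        exact ⟨fun e => hxy (by rw [e]), some x, none, rfl, h3.symm, K.adj_symm h2⟩
    · rintro ⟨hxy, p, q, hp, hq, h⟩
      refine ⟨fun e => hxy (Option.some.inj (congrArg Subtype.val e)), ?_⟩
      rcases p with _ | p <;> rcases q with _ | q
      · exact absurd h (K.irrefl)
      · have h1 : w = x := hp
        have h2 : q = y := hq
        subst h1 h2
        exact Or.inr (Or.inl ⟨rfl, h⟩)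
      · have h1 : p = x := hp
        have h2 : w = y := hq
        subst h1 h2
        exact Or.inr (Or.inr ⟨rfl, K.adj_symm h⟩)
      · have h1 : p = x := hp
        have h2 : q = y := hq
        subst h1 h2
        exact Or.inl h

end Vale.Agent.P235.H141
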