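import Vale.Agent.P235.H141.Step
import Vale.Agent.P235.H56.Fin
import Vale.Agent.P235.H447.Hub
import Vale.Agent.P235.H786.NC
import Vale.Agent.P235.H917.Last
import Vale.Agent.P235.H427.N3Grid
import Vale.Agent.P235.H578.SumMono

/-! (S) from the open rows (helper141). -/

set_option linter.all false

namespace Vale.Agent.P235.H141

open SimpleGraph Vale.Agent.P235 Vale.Agent.P235.H134 Vale.Agent.P235.H56
open Vale.Agent.P235.H341W (capG)

theorem conn3_iso {V W : Type} {G : SimpleGraph V} {H : SimpleGraph W} (φ : G ≃g H)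
    (h : Conn3 G) : Conn3 H := by
  intro s t C hC hs ht hcl y
  have := h (φ.symm s) (φ.symm t) {v | φ v ∈ C}
    (by
      obtain ⟨c, hc⟩ := hC
      exact ⟨φ.symm c, by
        show φ (φ.symm c) ∈ C
        rw [φ.apply_symm_apply]
        exact hc⟩)
    (fun h1 => hs (by
      have : φ (φ.symm s) ∈ C := h1
      rwa [φ.apply_symm_apply] at this))
    (fun h1 => ht (by
      have : φ (φ.symm t) ∈ C := h1
      rwa [φ.apply_symm_apply] at this))
    (fun u hu v huv => by
      rcases hcl (φ u) hu (φ v) (φ.map_rel_iff.2 huv) with h1 | h1 | h1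
      · exact Or.inl h1
      · exact Or.inr (Or.inl (by rw [← h1, φ.symm_apply_apply]))
      · exact Or.inr (Or.inr (by rw [← h1, φ.symm_apply_apply])))
    (φ.symm y)
  rcases this with h1 | h1 | h1
  · left
    have : φ (φ.symm y) ∈ C := h1
    rwa [φ.apply_symm_apply] at this
  · exact Or.inr (Or.inl (φ.symm.injective h1))
  · exact Or.inr (Or.inr (φ.symm.injective h1))

theorem struct_of (hcross : CrossGridStmt) (hdel : DelStmt) (hgm : GridMonoStmt) :
    StructStmt := by
  intro r hr
  obtain ⟨R1, -, hR1⟩ := H447.hubStmt 4 r hr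
  set s := max (3 * r) R1 with hs
  have hs1 : 3 * r ≤ s := le_max_left _ _
  have hs2 : R1 ≤ s := le_max_right _ _
  obtain ⟨R, -, hR⟩ := H447.hubStmt 5 (3 * s) (by omega)
  refine ⟨R, fun V _ G h3 h4 hG hgr => ?_⟩
  by_cases hplG : ∃ σ : Equiv.Perm G.Dart, PlaneMap G σ
  · exact Or.inl hplG
  right
  obtain ⟨f, hf, hle, hfn⟩ := H917.start (m := 3 * s) (by omega) hG (minor_trans hR hgr)
  have hq : Conn3 (quot G f) := H917.conn3_mono (H786.nc (3 * s) (by omega)) hle
  have hcard : Nat.card (Option (Fin (3 * s) × Fin (3 * s))) = 3 * s * (3 * s) + 1 := by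
    rw [Finite.card_option, Nat.card_prod, Nat.card_eq_fintype_card, Fintype.card_fin]
  have h9 : 9 ≤ 3 * s * (3 * s) := by nlinarith
  by_cases hp : ∃ σ : Equiv.Perm (quot G f).Dart, PlaneMap (quot G f) σ
  · obtain ⟨W', hW', g, w, k4, kf, k3, kab, knp, kp, kc, km⟩ :=
      H917.last h3 hplG hf hq hp (by omega)
    haveI := hW'
    have hφ := isoQ (quot G g) w kab
    have hgrid : IsMinor (grid (3 * s)) (contractEdge (quot G g) (some w) none) := by
      refine minor_trans ?_ (minor_trans km (minor_iso hφ))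
      refine minor_of_inj some (Option.some_injective _) fun x y hxy => hle ?_
      exact hxy
    have := step hcross (H427.n3Grid_of H917.modelStmt) hdel hgm k3
      (by rw [Finite.card_option]; omega) kab.symm (conn3_iso hφ kc) (Quo.planeMap_iso hφ kp) knp
      hr hs1 (minor_trans hR1 (hgm _ _ hs2)) hgrid
    exact H917.pull_sum kf this
  · have hK : IsMinor K33 (quot G f) := by
      by_contra hK
      rcases thmB _ (quot G f) hq (by omega) hK with h | ⟨h, _⟩
      · exact hp h
      · omega
    have := H917.pull hf (H917.conn3_conn hq (by omega)) hK (r := 3 * s) (by omega) ⟨none, hfn⟩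
    exact minor_trans (H578.sumMonoStmt _ _ _ _ _ _ (hgm r (3 * s) (by omega))) this

end Vale.Agent.P235.H141
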