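import Vale.Agent.P235.H141.JDefs
import Vale.Agent.P235.H141.Mk

/-! (WS) the maximality argument of the weak splitter theorem (helper141). -/

set_option linter.all false

namespace Vale.Agent.P235.H141

open SimpleGraph Vale.Agent.P235.H134 Vale.Agent.P235.H56

/-- a connected set is split between two of its points -/
theorem split_sep {V : Type} {G : SimpleGraph V} {Y : Set V} (hY : (G.induce Y).Connected)
    {a b : V} (ha : a ∈ Y) (hb : b ∈ Y) (hab : a ≠ b) :
    ∃ Y1 Y2 : Set V, (∀ v, v ∈ Y ↔ v ∈ Y1 ∨ v ∈ Y2) ∧ Disjoint Y1 Y2 ∧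
      (G.induce Y1).Connected ∧ (G.induce Y2).Connected ∧ a ∈ Y1 ∧ b ∈ Y2 := by
  set S : Set V := Yᶜ ∪ {a} with hS
  have hbS : b ∉ S := by
    rintro (h | h)
    · exact h hb
    · exact hab h.symm
  set Y2 : Set V := off G S b with hY2
  have h2Y : ∀ v ∈ Y2, v ∈ Y := fun v hv => by
    by_contra h
    exact off_not hv (Or.inl h)
  have ha2 : a ∉ Y2 := fun h => off_not h (Or.inr rfl)
  set Y1 : Set V := Y \ Y2 with hY1
  have ha1 : a ∈ Y1 := ⟨ha, ha2⟩
  refine ⟨Y1, Y2, fun v => ?_, Set.disjoint_sdiff_left, ?_, off_conn hbS, ha1, off_self hbS⟩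
  · constructor
    · intro hv
      by_cases h : v ∈ Y2
      · exact Or.inr h
      · exact Or.inl ⟨hv, h⟩
    · rintro (h | h)
      · exact h.1
      · exact h2Y v h
  · have key : ∀ {u v : Y} (p : (G.induce Y).Walk u v), v.1 = a → ∀ hu : u.1 ∈ Y1,
        (G.induce Y1).Reachable ⟨u.1, hu⟩ ⟨a, ha1⟩ := by
      intro u v p
      induction p with
      | nil =>
        intro hv hu
        have : (⟨_, hu⟩ : Y1) = ⟨a, ha1⟩ := Subtype.ext hv
        rw [this]
      | @cons x y z h p ih =>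
        intro hv hx
        by_cases hxa : x.1 = a
        · have : (⟨_, hx⟩ : Y1) = ⟨a, ha1⟩ := Subtype.ext hxa
          rw [this]
        have hxy : G.Adj x.1 y.1 := h
        have hy : y.1 ∈ Y1 := by
          refine ⟨y.2, fun hy => ?_⟩
          rcases off_cl hy hxy.symm with h1 | h1 | h1
          · exact hx.2 h1
          · exact h1 x.2
          · exact hxa h1
        exact (Adj.reachable (show (G.induce Y1).Adj ⟨x.1, hx⟩ ⟨y.1, hy⟩ from hxy)).trans
          (ih hv hy)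
    rw [connected_iff_exists_forall_reachable]
    refine ⟨⟨a, ha1⟩, fun v => ?_⟩
    obtain ⟨p⟩ := hY.preconnected ⟨v.1, v.2.1⟩ ⟨a, ha⟩
    exact (key p rfl v.2).symm

/-- in a connected set split in two there is an edge between the parts -/
theorem split_edge {V : Type} {G : SimpleGraph V} {B X Y : Set V} (hB : (G.induce B).Connected)
    (h : ∀ v, v ∈ B ↔ v ∈ X ∨ v ∈ Y) (hX : X.Nonempty) (hY : Y.Nonempty) (hXY : Disjoint X Y) :
    ∃ x ∈ X, ∃ y ∈ Y, G.Adj x y := by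
  obtain ⟨x, hx⟩ := hX
  obtain ⟨y, hy⟩ := hY
  obtain ⟨p⟩ := hB.preconnected ⟨x, (h x).2 (Or.inl hx)⟩ ⟨y, (h y).2 (Or.inr hy)⟩
  obtain ⟨d, _, hd1, hd2⟩ := p.exists_boundary_dart {v : B | v.1 ∈ X} hx
    (fun h => Set.disjoint_left.1 hXY h hy)
  exact ⟨d.fst.1, hd1, d.snd.1, ((h _).1 d.snd.2).resolve_left hd2, d.adj⟩

theorem exists_max {P : ℕ → Prop} {b : ℕ} (h : ∃ n, P n) (hb : ∀ n, P n → n ≤ b) :
    ∃ n, P n ∧ ∀ m, P m → m ≤ n := by
  classical
  obtain ⟨n, hn⟩ := h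
  exact ⟨Nat.findGreatest P b, Nat.findGreatest_spec (hb _ hn) hn,
    fun m hm => Nat.le_findGreatest (hb m hm) hm⟩

theorem card_le_three {W : Type} [Finite W] {a b c : W} (h : ∀ y, y = a ∨ y = b ∨ y = c) :
    Nat.card W ≤ 3 := by
  classical
  have : Fintype W := Fintype.ofFinite W
  rw [Nat.card_eq_fintype_card, ← Finset.card_univ]
  have h1 : (Finset.univ : Finset W) ⊆ {a, b, c} := fun y _ => by
    simpa using h y
  exact (Finset.card_le_card h1).trans Finset.card_le_three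

section

variable {V W : Type} {G : SimpleGraph V}

/-- the fibre `p ≠ w` is seen from `X` -/
def Sees (G : SimpleGraph V) (f : V → W) (w : W) (X : Set V) (p : W) : Prop :=
  p ≠ w ∧ ∃ x ∈ X, ∃ y, G.Adj x y ∧ f y = p

def Small (G : SimpleGraph V) (f : V → W) (w : W) (X : Set V) : Prop :=
  ∀ p q, Sees G f w X p → Sees G f w X q → p = q

/-- a split of a fibre -/
structure Cfg (G : SimpleGraph V) (K : SimpleGraph W) (f : V → W) (w : W) (X Y : Set V) :
    Prop where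
  fib : ∀ w, (G.induce {v | f v = w}).Connected
  quo : quot G f = K
  mem : ∀ v, f v = w ↔ v ∈ X ∨ v ∈ Y
  dis : Disjoint X Y
  cx : (G.induce X).Connected
  cy : (G.induce Y).Connected

theorem Cfg.symm {K : SimpleGraph W} {f : V → W} {w : W} {X Y : Set V} (h : Cfg G K f w X Y) :
    Cfg G K f w Y X :=
  ⟨h.fib, h.quo, fun v => (h.mem v).trans or_comm, h.dis.symm, h.cy, h.cx⟩

theorem deg3 [Finite W] {K : SimpleGraph W} (hK : Conn3 K) (hc : 4 ≤ Nat.card W) (w s t : W) :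
    ∃ p, K.Adj w p ∧ p ≠ s ∧ p ≠ t := by
  by_contra hcon
  push Not at hcon
  have h1 : ∀ s : W, ∃ s', s' ≠ w ∧ (s ≠ w → s' = s) := by
    intro s
    by_cases hs : s = w
    · obtain ⟨x, hx⟩ : ∃ x : W, x ≠ w := by
        by_contra h
        push Not at h
        have := card_le_three (a := w) (b := w) (c := w) fun y => Or.inl (h y)
        omega
      exact ⟨x, hx, fun h => absurd hs h⟩
    · exact ⟨s, hs, fun _ => rfl⟩
  obtain ⟨s', hs1, hs2⟩ := h1 s
  obtain ⟨t', ht1, ht2⟩ := h1 t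
  have h2 := hK s' t' {w} ⟨w, rfl⟩ hs1 ht1 (by
    rintro u rfl v huv
    by_cases hvs : v = s
    · subst hvs
      exact Or.inr (Or.inl (hs2 huv.ne').symm)
    · have h3 := hcon v huv hvs
      subst h3
      exact Or.inr (Or.inr (ht2 huv.ne').symm))
  have := card_le_three (a := w) (b := s') (c := t') h2
  omega

open Classical in
/-- move `X` to the fibre `p` -/
noncomputable def mv (f : V → W) (X : Set V) (p : W) (v : V) : W := if v ∈ X then p else f v

theorem mv_in {f : V → W} {X : Set V} {p : W} {v : V} (h : v ∈ X) : mv f X p v = p := by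
  simp [mv, h]

theorem mv_out {f : V → W} {X : Set V} {p : W} {v : V} (h : v ∉ X) : mv f X p v = f v := by
  simp [mv, h]

theorem Cfg.mv_w {K : SimpleGraph W} {f : V → W} {w p : W} {X Y : Set V} (h : Cfg G K f w X Y)
    (hp : p ≠ w) (v : V) : mv f X p v = w ↔ v ∈ Y := by
  by_cases hv : v ∈ X
  · rw [mv_in hv]
    exact ⟨fun h => absurd h hp, fun h1 => absurd h1 (Set.disjoint_left.1 h.dis hv)⟩
  · rw [mv_out hv, h.mem]
    exact or_iff_right hv

theorem Cfg.move {K : SimpleGraph W} {f : V → W} {w p : W} {X Y : Set V} (h : Cfg G K f w X Y)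
    (hp : Sees G f w X p) (hall : ∀ q, Sees G f w X q → q = p) :
    Cfg G K (mv f X p) p X {v | f v = p} := by
  obtain ⟨hpw, x0, hx0, y0, hxy0, hy0⟩ := hp
  have hXw : ∀ v ∈ X, f v = w := fun v hv => (h.mem v).2 (Or.inl hv)
  have hdis : Disjoint X {v | f v = p} := by
    rw [Set.disjoint_left]
    intro v hv (hv' : f v = p)
    exact hpw (hv'.symm.trans (hXw v hv))
  have hmem : ∀ v, mv f X p v = p ↔ v ∈ X ∨ v ∈ {v | f v = p} := by
    intro v
    by_cases hv : v ∈ X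
    · simp [mv_in hv, hv]
    · simp [mv_out hv, hv]
  refine ⟨fun u => ?_, ?_, hmem, hdis, h.cx, h.fib p⟩
  · by_cases hup : u = p
    · subst hup
      have : {v | mv f X u v = u} = X ∪ {v | f v = u} := Set.ext hmem
      rw [this]
      exact connected_induce_union h.cx.preconnected (h.fib u).preconnected hx0 hy0 hxy0
    · by_cases huw : u = w
      · subst huw
        have : {v | mv f X p v = u} = Y := Set.ext (h.mv_w hpw)
        rw [this]
        exact h.cy
      · have : {v | mv f X p v = u} = {v | f v = u} := by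
          ext v
          by_cases hv : v ∈ X
          · simp only [Set.mem_setOf_eq, mv_in hv, hXw v hv]
            exact ⟨fun h => absurd h.symm hup, fun h => absurd h.symm huw⟩
          · simp only [Set.mem_setOf_eq, mv_out hv]
        rw [this]
        exact h.fib u
  · rw [← h.quo]
    obtain ⟨x1, hx1, y1, hy1, hxy1⟩ := split_edge (h.fib w) h.mem
      (Set.nonempty_coe_sort.1 h.cx.nonempty) (Set.nonempty_coe_sort.1 h.cy.nonempty) h.dis
    have hy1w : f y1 = w := (h.mem y1).2 (Or.inr hy1)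
    have hy1X : y1 ∉ X := fun h1 => Set.disjoint_left.1 h.dis h1 hy1
    have hy0X : y0 ∉ X := fun h1 => hpw (hy0.symm.trans (hXw _ h1))
    have hwp : (quot G f).Adj w p := ⟨hpw.symm, x0, y0, hXw _ hx0, hy0, hxy0⟩
    have hwp' : (quot G (mv f X p)).Adj w p :=
      ⟨hpw.symm, y1, x1, by rw [mv_out hy1X, hy1w], mv_in hx1, hxy1.symm⟩
    have key : ∀ x y, G.Adj x y → x ∈ X → y ∉ X → f y = w ∨ f y = p := by
      intro x y hxy hx hy
      by_cases hyw : f y = w
      · exact Or.inl hyw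
      · exact Or.inr (hall _ ⟨hyw, x, hx, y, hxy, rfl⟩)
    ext a b
    constructor
    · rintro ⟨hab, x, y, hx, hy, hxy⟩
      by_cases h1 : x ∈ X <;> by_cases h2 : y ∈ X
      · rw [mv_in h1] at hx
        rw [mv_in h2] at hy
        exact absurd (hx.symm.trans hy) hab
      · rw [mv_in h1] at hx
        rw [mv_out h2] at hy
        subst hx
        rcases key x y hxy h1 h2 with h3 | h3
        · rw [← hy, h3]
          exact hwp.symm
        · exact absurd (h3.symm.trans hy) hab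
      · rw [mv_out h1] at hx
        rw [mv_in h2] at hy
        subst hy
        rcases key y x hxy.symm h2 h1 with h3 | h3
        · rw [← hx, h3]
          exact hwp
        · exact absurd (hx.symm.trans h3) hab
      · rw [mv_out h1] at hx
        rw [mv_out h2] at hy
        exact ⟨hab, x, y, hx, hy, hxy⟩
    · rintro ⟨hab, x, y, hx, hy, hxy⟩
      by_cases h1 : x ∈ X <;> by_cases h2 : y ∈ X
      · exact absurd (hx.symm.trans ((hXw x h1).trans ((hXw y h2).symm.trans hy))) hab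
      · have hxw := hXw x h1
        rcases key x y hxy h1 h2 with h3 | h3
        · exact absurd (hx.symm.trans (hxw.trans (h3.symm.trans hy))) hab
        · rw [← hx, ← hy, hxw, h3]
          exact hwp'
      · have hyw := hXw y h2
        rcases key y x hxy.symm h2 h1 with h3 | h3
        · exact absurd (hx.symm.trans (h3.trans (hyw.symm.trans hy))) hab
        · rw [← hx, ← hy, hyw, h3]
          exact hwp'.symm
      · exact ⟨hab, x, y, by rw [mv_out h1, hx], by rw [mv_out h2, hy], hxy⟩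

theorem Cfg.seen {K : SimpleGraph W} {f : V → W} {w q : W} {X Y : Set V} (h : Cfg G K f w X Y)
    (hq : K.Adj w q) : Sees G f w X q ∨ Sees G f w Y q := by
  rw [← h.quo] at hq
  obtain ⟨hwq, x, y, hx, hy, hxy⟩ := hq
  rcases (h.mem x).1 hx with h1 | h1
  · exact Or.inl ⟨hwq.symm, x, h1, y, hxy, hy⟩
  · exact Or.inr ⟨hwq.symm, x, h1, y, hxy, hy⟩

theorem Sees.split {f : V → W} {w q : W} {Y Y1 Y2 : Set V}
    (hY : ∀ v, v ∈ Y ↔ v ∈ Y1 ∨ v ∈ Y2) (h : Sees G f w Y q) :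
    Sees G f w Y1 q ∨ Sees G f w Y2 q := by
  obtain ⟨hq, x, hx, y, hxy, hy⟩ := h
  rcases (hY x).1 hx with h1 | h1
  · exact Or.inl ⟨hq, x, h1, y, hxy, hy⟩
  · exact Or.inr ⟨hq, x, h1, y, hxy, hy⟩

theorem Cfg.surj {K : SimpleGraph W} {f : V → W} {w : W} {X Y : Set V} (h : Cfg G K f w X Y)
    (u : W) : ∃ v, f v = u := by
  obtain ⟨⟨v, hv⟩⟩ := (h.fib u).nonempty
  exact ⟨v, hv⟩

theorem Cfg.nbr3 [Finite W] {K : SimpleGraph W} {f : V → W} {w : W} {X Y : Set V}
    (h : Cfg G K f w X Y) (hG : Conn3 G) (hc : 4 ≤ Nat.card W) {s t : V} (hs : s ∉ X)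
    (ht : t ∉ X) : ∃ x ∈ X, ∃ y, y ∉ X ∧ G.Adj x y ∧ y ≠ s ∧ y ≠ t := by
  by_contra hcon
  push Not at hcon
  have h1 := hG s t X (Set.nonempty_coe_sort.1 h.cx.nonempty) hs ht fun u hu v huv => by
    by_cases hv : v ∈ X
    · exact Or.inl hv
    · by_cases hvs : v = s
      · exact Or.inr (Or.inl hvs)
      · exact Or.inr (Or.inr (hcon u hu v hv huv hvs))
  have h2 : ∀ u : W, u = w ∨ u = f s ∨ u = f t := fun u => by
    obtain ⟨v, rfl⟩ := h.surj u
    rcases h1 v with h3 | h3 | h3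
    · exact Or.inl ((h.mem v).2 (Or.inl h3))
    · exact Or.inr (Or.inl (by rw [h3]))
    · exact Or.inr (Or.inr (by rw [h3]))
  have := card_le_three h2
  omega

section main

variable [Finite V] [Finite W] {K : SimpleGraph W}

theorem grow {n : ℕ}
    (hng : ∀ (f : V → W) (w : W) (X Y : Set V), Cfg G K f w X Y → Small G f w X ∨ Small G f w Y)
    (hmax : ∀ (f : V → W) (w : W) (X Y : Set V), Cfg G K f w X Y → Small G f w X → X.ncard ≤ n)
    {f : V → W} {w : W} {X Y Y1 Y2 : Set V} (h : Cfg G K f w X Y) (hn : X.ncard = n)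
    (hY : ∀ v, v ∈ Y ↔ v ∈ Y1 ∨ v ∈ Y2) (hd : Disjoint Y1 Y2) (h1 : (G.induce Y1).Connected)
    (h2 : (G.induce Y2).Connected) {x y : V} (hx : x ∈ X) (hy : y ∈ Y1) (hxy : G.Adj x y) :
    Small G f w Y2 := by
  have hC : Cfg G K f w (X ∪ Y1) Y2 := by
    refine ⟨h.fib, h.quo, fun v => ?_, ?_,
      connected_induce_union h.cx.preconnected h1.preconnected hx hy hxy, h2⟩
    · rw [h.mem, hY, Set.mem_union, or_assoc]
    · rw [Set.disjoint_union_left]
      exact ⟨h.dis.mono_right fun v hv => (hY v).2 (Or.inr hv), hd⟩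
  rcases hng _ _ _ _ hC with h3 | h3
  · exfalso
    have h4 := hmax _ _ _ _ hC h3
    have h5 : X.ncard < (X ∪ Y1).ncard := by
      refine Set.ncard_lt_ncard ⟨Set.subset_union_left, fun h6 => ?_⟩ (Set.toFinite _)
      exact Set.disjoint_left.1 h.dis (h6 (Or.inr hy)) ((hY y).2 (Or.inl hy))
    omega
  · exact h3

theorem other {f : V → W} {w p : W} {X Y Y1 Y2 : Set V} (h : Cfg G K f w X Y) (hK : Conn3 K)
    (hc : 4 ≤ Nat.card W) (hall : ∀ q, Sees G f w X q → q = p)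
    (hY : ∀ v, v ∈ Y ↔ v ∈ Y1 ∨ v ∈ Y2) (h2 : Small G f w Y2) :
    ∃ q, q ≠ p ∧ Sees G f w Y1 q := by
  by_contra hcon
  push Not at hcon
  have hs : ∀ q, K.Adj w q → q ≠ p → Sees G f w Y2 q := by
    intro q hq hqp
    rcases h.seen hq with h3 | h3
    · exact absurd (hall q h3) hqp
    · rcases h3.split hY with h4 | h4
      · exact absurd h4 (hcon q hqp)
      · exact h4
  obtain ⟨q, hq1, hq2, _⟩ := deg3 hK hc w p p
  obtain ⟨q', hq1', hq2', hq3'⟩ := deg3 hK hc w p q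
  exact hq3' (h2 _ _ (hs q' hq1' hq2') (hs q hq1 hq2))

theorem caseY {n : ℕ} (hK : Conn3 K) (hc : 4 ≤ Nat.card W)
    (hng : ∀ (f : V → W) (w : W) (X Y : Set V), Cfg G K f w X Y → Small G f w X ∨ Small G f w Y)
    (hmax : ∀ (f : V → W) (w : W) (X Y : Set V), Cfg G K f w X Y → Small G f w X → X.ncard ≤ n)
    {f : V → W} {w p : W} {X Y : Set V} (h : Cfg G K f w X Y) (hn : X.ncard = n)
    (hp : Sees G f w X p) (hall : ∀ q, Sees G f w X q → q = p) {x1 x2 y1 y2 : V} (hx1 : x1 ∈ X)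
    (hx2 : x2 ∈ X) (hy1 : y1 ∈ Y) (hy2 : y2 ∈ Y) (h12 : y1 ≠ y2) (ha1 : G.Adj x1 y1)
    (ha2 : G.Adj x2 y2) : False := by
  obtain ⟨Y1, Y2, hY, hd, hc1, hc2, hm1, hm2⟩ := split_sep h.cy hy1 hy2 h12
  have hY' : ∀ v, v ∈ Y ↔ v ∈ Y2 ∨ v ∈ Y1 := fun v => (hY v).trans or_comm
  have hs2 := grow hng hmax h hn hY hd hc1 hc2 hx1 hm1 ha1
  have hs1 := grow hng hmax h hn hY' hd.symm hc2 hc1 hx2 hm2 ha2
  obtain ⟨q1, hq1, hs1'⟩ := other h hK hc hall hY hs2
  obtain ⟨q2, hq2, hs2'⟩ := other h hK hc hall hY' hs1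
  have hM := h.move hp hall
  have hC : Cfg G K (mv f X p) w Y1 Y2 :=
    ⟨hM.fib, hM.quo, fun v => (h.mv_w hp.1 v).trans (hY v), hd, hc1, hc2⟩
  have hsee : ∀ (Z : Set V) (q : W), q ≠ w → Sees G f w Z q → Sees G (mv f X p) w Z q := by
    rintro Z q hqw ⟨_, x, hx, y, hxy, hy⟩
    refine ⟨hqw, x, hx, y, hxy, ?_⟩
    rw [mv_out, hy]
    intro hyX
    exact hqw (hy.symm.trans ((h.mem y).2 (Or.inl hyX)))
  rcases hng _ _ _ _ hC with h3 | h3
  · exact hq1 (h3 q1 p (hsee _ _ hs1'.1 hs1') ⟨hp.1, y1, hm1, x1, ha1.symm, mv_in hx1⟩)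
  · exact hq2 (h3 q2 p (hsee _ _ hs2'.1 hs2') ⟨hp.1, y2, hm2, x2, ha2.symm, mv_in hx2⟩)

/-- **Some equivalent quotient has a fibre with a good split.** -/
theorem exists_good (hG : Conn3 G) {f : V → W}
    (hf : ∀ w, (G.induce {v | f v = w}).Connected) (hK : Conn3 (quot G f))
    (hc : 4 ≤ Nat.card W) (hlt : Nat.card W < Nat.card V) :
    ∃ (f' : V → W) (w : W) (X Y : Set V), Cfg G (quot G f) f' w X Y ∧ ¬ Small G f' w X ∧
      ¬ Small G f' w Y := by
  by_contra hcon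
  push Not at hcon
  have hng : ∀ (f' : V → W) (w : W) (X Y : Set V), Cfg G (quot G f) f' w X Y →
      Small G f' w X ∨ Small G f' w Y := by
    intro f' w X Y h
    by_cases h1 : Small G f' w X
    · exact Or.inl h1
    · exact Or.inr (hcon f' w X Y h h1)
  obtain ⟨a, b, hab, hfab⟩ : ∃ a b : V, a ≠ b ∧ f a = f b := by
    by_contra h
    push Not at h
    have := Nat.card_le_card_of_injective f fun a b hab => by
      by_contra hne
      exact h a b hne hab
    omega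
  obtain ⟨X0, Y0, hm0, hd0, hx0, hy0, _, _⟩ :=
    split_sep (hf (f b)) (show a ∈ {v | f v = f b} from hfab) (show b ∈ {v | f v = f b} from rfl)
      hab
  have hC0 : Cfg G (quot G f) f (f b) X0 Y0 := ⟨hf, rfl, hm0, hd0, hx0, hy0⟩
  obtain ⟨n, ⟨f1, w, X, Y, h, hsm, hn⟩, hmax'⟩ := exists_max
    (P := fun n => ∃ (f' : V → W) (w : W) (X Y : Set V), Cfg G (quot G f) f' w X Y ∧
      Small G f' w X ∧ X.ncard = n) (b := Nat.card V)
    (by
      rcases hng _ _ _ _ hC0 with h | h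
      · exact ⟨_, _, _, _, _, hC0, h, rfl⟩
      · exact ⟨_, _, _, _, _, hC0.symm, h, rfl⟩)
    (by
      rintro n ⟨_, _, X, _, _, _, rfl⟩
      exact Set.ncard_le_card X)
  have hmax : ∀ (f' : V → W) (w : W) (X Y : Set V), Cfg G (quot G f) f' w X Y →
      Small G f' w X → X.ncard ≤ n := fun f' w X Y h1 h2 => hmax' _ ⟨f', w, X, Y, h1, h2, rfl⟩
  obtain ⟨x1, hx1, y1, hy1, hxy1⟩ := split_edge (h.fib w) h.mem
    (Set.nonempty_coe_sort.1 h.cx.nonempty) (Set.nonempty_coe_sort.1 h.cy.nonempty) h.dis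
  have hy1X : y1 ∉ X := fun h1 => Set.disjoint_left.1 h.dis h1 hy1
  by_cases h0 : ∃ p, Sees G f1 w X p
  · obtain ⟨p, hp⟩ := h0
    have hall : ∀ q, Sees G f1 w X q → q = p := fun q hq => hsm q p hq hp
    obtain ⟨hpw, x0, hx0, z1, hxz, hz1⟩ := id hp
    have hXw : ∀ v ∈ X, f1 v = w := fun v hv => (h.mem v).2 (Or.inl hv)
    have hz1X : z1 ∉ X := fun h1 => hpw (hz1.symm.trans (hXw _ h1))
    obtain ⟨x3, hx3, y3, hy3X, hxy3, h31, h32⟩ := h.nbr3 hG hc hy1X hz1X
    by_cases hy3w : f1 y3 = w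
    · have hy3 : y3 ∈ Y := ((h.mem y3).1 hy3w).resolve_left hy3X
      exact caseY hK hc hng hmax h hn hp hall hx1 hx3 hy1 hy3 h31.symm hxy1 hxy3
    · have hy3p : f1 y3 = p := hall _ ⟨hy3w, x3, hx3, y3, hxy3, rfl⟩
      have hM := h.move hp hall
      refine caseY hK hc hng hmax hM hn (p := w)
        ⟨hpw.symm, x1, hx1, y1, hxy1, (h.mv_w hpw y1).2 hy1⟩ ?_ hx0 hx3 hz1 hy3p h32.symm hxz hxy3
      rintro q ⟨hqp, x, hx, y, hxy, hy⟩
      by_cases hyX : y ∈ X
      · rw [mv_in hyX] at hy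
        exact absurd hy.symm hqp
      · rw [mv_out hyX] at hy
        by_contra hqw
        exact hqp (hall q ⟨hqw, x, hx, y, hxy, hy⟩)
  · push Not at h0
    obtain ⟨x3, hx3, y3, hy3X, hxy3, h31, _⟩ := h.nbr3 hG hc hy1X hy1X
    have hy3w : f1 y3 = w := by
      by_contra hne
      exact h0 _ ⟨hne, x3, hx3, y3, hxy3, rfl⟩
    have hy3 : y3 ∈ Y := ((h.mem y3).1 hy3w).resolve_left hy3X
    obtain ⟨Y1, Y2, hY, hd, hc1, hc2, hm1, hm2⟩ := split_sep h.cy hy1 hy3 h31.symm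
    have hY' : ∀ v, v ∈ Y ↔ v ∈ Y2 ∨ v ∈ Y1 := fun v => (hY v).trans or_comm
    have hs2 := grow hng hmax h hn hY hd hc1 hc2 hx1 hm1 hxy1
    have hs1 := grow hng hmax h hn hY' hd.symm hc2 hc1 hx3 hm2 hxy3
    have hs : ∀ q, (quot G f).Adj w q → Sees G f1 w Y1 q ∨ Sees G f1 w Y2 q := by
      intro q hq
      rcases h.seen hq with h3 | h3
      · exact absurd h3 (h0 q)
      · exact h3.split hY
    obtain ⟨q, hq, _, _⟩ := deg3 hK hc w w w
    obtain ⟨q', hq', hqq', _⟩ := deg3 hK hc w q q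
    obtain ⟨q'', hq'', h1'', h2''⟩ := deg3 hK hc w q q'
    rcases hs _ hq with a1 | a1 <;> rcases hs _ hq' with a2 | a2 <;>
      rcases hs _ hq'' with a3 | a3
    · exact hqq' (hs1 _ _ a2 a1)
    · exact hqq' (hs1 _ _ a2 a1)
    · exact h1'' (hs1 _ _ a3 a1)
    · exact h2'' (hs2 _ _ a3 a2)
    · exact h2'' (hs1 _ _ a3 a2)
    · exact h1'' (hs2 _ _ a3 a1)
    · exact hqq' (hs2 _ _ a2 a1)
    · exact hqq' (hs2 _ _ a2 a1)

end main

end

end Vale.Agent.P235.H141
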